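import Vale.Agent.P159.Defs

/-!
Correlations of integer charges at several sites.
-/

open MeasureTheory Filter Topology
open scoped BigOperators

namespace Vale.Agent.P159.H454

/-- expectation in the box `[-R,R]²` of `cos (∑ m_j θ_{x_j})`: integer charges `m_j` at the
sites `x_j` -/
noncomputable def chargeCorr (R : ℕ) (b : ℝ) {k : ℕ} (m : Fin k → ℤ) (x : Fin k → ℤ × ℤ) : ℝ :=
  expect (boxEnergy R b) fun θ => Real.Angle.cos (∑ j, m j • ext θ (x j))

/-- If the charges `m_j` sit at sites `x_j` and `x_j` has sup distance at least `d_j` from all the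
other sites, then the correlation in every box, and in infinite volume, is nonnegative and at most
`K ∏ d_j ^ (-m_j² / (4 π S))` with the stiffness `S` of any block; `K` depends on the block, `b`
and the charges only. -/
def ChargeBound : Prop :=
  ∀ (l : ℕ), 1 ≤ l → ∀ b : ℝ, 0 ≤ b → ∀ (k : ℕ) (m : Fin k → ℤ), ∃ K : ℝ, 0 < K ∧
    ∀ (x : Fin k → ℤ × ℤ) (d : Fin k → ℕ), (∀ j, 1 ≤ d j) →
      (∀ i j, i ≠ j → (d i : ℤ) ≤ max |(x i - x j).1| |(x i - x j).2|) →
      (∀ R : ℕ, (∀ j, x j ∈ box R) → 0 ≤ chargeCorr R b m x ∧ chargeCorr R b m x ≤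
        K * ∏ j, (d j : ℝ) ^ (-((m j : ℝ) ^ 2 / (4 * Real.pi * stiff l b)))) ∧
      ∃ c : ℝ, Tendsto (fun R : ℕ => chargeCorr R b m x) atTop (𝓝 c) ∧ 0 ≤ c ∧
        c ≤ K * ∏ j, (d j : ℝ) ^ (-((m j : ℝ) ^ 2 / (4 * Real.pi * stiff l b)))

end Vale.Agent.P159.H454
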