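import Vale.Agent.P159.H454.Prof

/-!
The bound for the correlations of integer charges at several sites.
-/

open MeasureTheory Filter Topology
open scoped BigOperators

namespace Vale.Agent.P159.H454

/-- number of the block containing a site -/
def blk (l : ℕ) (x : ℤ × ℤ) : ℤ × ℤ := (x.1 / l, x.2 / l)

theorem notMem_of_ne {l : ℕ} (hl : 1 ≤ l) {x κ : ℤ × ℤ} (h : κ ≠ blk l x) :
    x ∉ innerAt l κ := by
  have hlz : (0 : ℤ) < l := by exact_mod_cast hl
  have h1 := Int.mul_ediv_add_emod x.1 l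
  have h2 := Int.mul_ediv_add_emod x.2 l
  have e : x = cor l (blk l x) + (x.1 % l, x.2 % l) := by
    unfold cor blk
    ext
    · simp only [Prod.fst_add]
      exact h1.symm
    · simp only [Prod.snd_add]
      exact h2.symm
  rw [e]
  exact notMem_innerAt h (Int.emod_nonneg _ hlz.ne') (Int.emod_lt_of_pos _ hlz).le
    (Int.emod_nonneg _ hlz.ne') (Int.emod_lt_of_pos _ hlz).le

/-- the bound for one charge -/
theorem one_charge {e L : ℝ} (he : 0 ≤ e) (hL : 0 < L) {n d : ℕ} (hd : 1 ≤ d)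
    (h : (d : ℝ) ≤ L * max (n : ℝ) 1) :
    Real.exp (-(e * Real.log n)) ≤ L ^ e * (d : ℝ) ^ (-e) := by
  have hd0 : (0 : ℝ) < d := by exact_mod_cast hd
  rw [Real.rpow_def_of_pos hL, Real.rpow_def_of_pos hd0, ← Real.exp_add]
  apply Real.exp_le_exp.2
  have hlog : Real.log d ≤ Real.log L + Real.log n := by
    rcases Nat.eq_zero_or_pos n with hn | hn
    · subst hn
      have : max (((0 : ℕ) : ℝ)) 1 = 1 := by norm_num
      rw [this, mul_one] at h
      simp only [Nat.cast_zero, Real.log_zero, add_zero]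
      exact Real.log_le_log hd0 h
    · have hn1 : (1 : ℝ) ≤ n := by exact_mod_cast hn
      have hn0 : (0 : ℝ) < n := by linarith only [hn1]
      rw [max_eq_left hn1] at h
      rw [← Real.log_mul hL.ne' hn0.ne']
      exact Real.log_le_log hd0 h
  have h1 := mul_le_mul_of_nonneg_left hlog he
  linarith only [h1]

theorem chargeBound_aux {l : ℕ} (hl : 1 ≤ l) {b : ℝ} (hb : 0 ≤ b) {U : ℝ} (hU0 : 0 < U)
    (hU : stiff l b ≤ U) {k : ℕ} (m : Fin k → ℤ) :
    ∃ K : ℝ, 0 < K ∧ ∀ (R : ℕ) (x : Fin k → ℤ × ℤ) (d : Fin k → ℕ), (∀ j, x j ∈ box R) →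
      (∀ j, 1 ≤ d j) →
      (∀ i j, i ≠ j → (d i : ℤ) ≤ max |(x i - x j).1| |(x i - x j).2|) →
      chargeCorr R b m x ≤ K * ∏ j, (d j : ℝ) ^ (-((m j : ℝ) ^ 2 / (4 * Real.pi * U))) := by
  classical
  have hpi := Real.pi_pos
  have hl0 : (0 : ℝ) < l := by exact_mod_cast hl
  have hlz : (0 : ℤ) < l := by exact_mod_cast hl
  obtain ⟨C, δ, hC, hδ, hrho⟩ := rho_block hl hb hU
  set τ : Fin k → ℝ := fun j => m j / (2 * Real.pi * U) with hτ
  set e : Fin k → ℝ := fun j => (m j : ℝ) ^ 2 / (4 * Real.pi * U) with he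
  have he0 : ∀ j, 0 ≤ e j := fun j => by
    simp only [he]
    positivity
  have e1 : ∀ j, (m j : ℝ) * τ j = 2 * e j := fun j => by
    simp only [hτ, he]
    field_simp
    ring
  have e2 : ∀ j, Real.pi * U * τ j ^ 2 = e j := fun j => by
    simp only [hτ, he]
    field_simp
    ring
  set T := ∑ j, |τ j| with hT
  have hT0 : 0 ≤ T := Finset.sum_nonneg fun j _ => abs_nonneg _
  have hτT : ∀ j, |τ j| ≤ T := fun j =>
    Finset.single_le_sum (f := fun j => |τ j|) (fun i _ => abs_nonneg _) (Finset.mem_univ j)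
  set M := 9 + 16 * T / δ with hMdef
  have hM : 9 ≤ M := by
    have : 0 ≤ 16 * T / δ := by positivity
    linarith
  have hM0 : 0 < M := by linarith only [hM]
  have hMδ : ∀ j, |τ j| * (16 / M) ≤ δ := by
    intro j
    refine (mul_le_mul_of_nonneg_right (hτT j) (by positivity)).trans ?_
    rw [mul_div_assoc', div_le_iff₀ hM0, hMdef]
    have h3 : δ * (9 + 16 * T / δ) = 9 * δ + 16 * T := by field_simp
    rw [h3]
    linarith only [hδ]
  set m0 := Real.log (M ^ 2 + 2) / 2 with hm0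
  set C2 : ℝ := ∑ _e : BI l, b / 2 * (Real.cosh δ - 1) with hC2
  have hC20 : 0 ≤ C2 := Finset.sum_nonneg fun _ _ =>
    mul_nonneg (by positivity) (sub_nonneg.2 (Real.one_le_cosh δ))
  set c0 := ∑ j, (2 * e j * m0 + U / 2 * τ j ^ 2 * 4600 + C * (τ j ^ 2 + τ j ^ 4) * 210000) +
    k * C2 with hc0
  refine ⟨Real.exp c0 * ∏ j, (5 * (l : ℝ)) ^ e j, by
    have : ∀ j ∈ Finset.univ, 0 < (5 * (l : ℝ)) ^ e j := fun j _ => by positivity
    exact mul_pos (Real.exp_pos _) (Finset.prod_pos this), ?_⟩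
  intro R x d hxR hd1 hdist
  -- blocks and sizes
  set κ : Fin k → ℤ × ℤ := fun j => blk l (x j) with hκ
  set n : Fin k → ℕ := fun j => (d j / l - 1) / 2 with hn
  have hκd : ∀ i j, i ≠ j → ((d i / l : ℕ) : ℤ) ≤ max |(κ i - κ j).1| |(κ i - κ j).2| := by
    intro i j hij
    rcases le_max_iff.1 (hdist i j hij) with h | h
    · exact le_max_of_le_left (floor_dist hl (by simpa using h))
    · exact le_max_of_le_right (floor_dist hl (by simpa using h))
  have hn2 : ∀ j, 1 ≤ n j → 2 * n j + 1 ≤ d j / l := by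
    intro j h
    simp only [hn] at h ⊢
    omega
  have hdn : ∀ j, (d j : ℝ) ≤ 5 * l * max (n j : ℝ) 1 := by
    intro j
    have h1 : d j / l ≤ 2 * n j + 2 := by
      simp only [hn]
      omega
    have h2 : d j < l * (d j / l + 1) := Nat.lt_mul_div_succ _ hl
    have h3 : l * (d j / l + 1) ≤ l * (2 * n j + 3) := Nat.mul_le_mul_left _ (by omega)
    have h4 : (d j : ℝ) ≤ l * (2 * n j + 3) := by exact_mod_cast (h2.le.trans h3)
    have h5 : (2 * (n j : ℝ) + 3) ≤ 5 * max (n j : ℝ) 1 := by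
      have := le_max_left (n j : ℝ) 1
      have := le_max_right (n j : ℝ) 1
      linarith
    have h6 := mul_le_mul_of_nonneg_left h5 hl0.le
    linarith only [h4, h6]
  have hdis : ∀ (z : ℤ × ℤ) (i j : Fin k), i ≠ j → 1 ≤ n i → 1 ≤ n j → z - κ i ∈ sq (n i) →
      z - κ j ∉ sq (n j) := by
    intro z i j hij hi hj h1 h2
    rw [mem_sq_iff] at h1 h2
    obtain ⟨c1, c2⟩ := h1
    obtain ⟨c3, c4⟩ := h2
    have g1 := hκd i j hij
    have g2 := hκd j i hij.symm
    have q1 := hn2 i hi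
    have q2 := hn2 j hj
    simp only [Prod.fst_sub, Prod.snd_sub] at c1 c2 c3 c4 g1 g2
    rw [abs_le] at c1 c2 c3 c4
    have d1 : |(κ i).1 - (κ j).1| ≤ n i + n j := by rw [abs_le]; omega
    have d2 : |(κ i).2 - (κ j).2| ≤ n i + n j := by rw [abs_le]; omega
    have d3 : |(κ j).1 - (κ i).1| ≤ n i + n j := by rw [abs_le]; omega
    have d4 : |(κ j).2 - (κ i).2| ≤ n i + n j := by rw [abs_le]; omega
    have g3 := g1.trans (max_le d1 d2)
    have g4 := g2.trans (max_le d3 d4)
    omega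
  set a : ℤ × ℤ → ℝ := fun z => ∑ j, τ j * psi M (n j) (z - κ j) with ha
  have hmc := fun z => multi_centre hM τ n κ hdis hδ.le hMδ ha z
  -- values of the profile at the corners of the block of a charge
  have hcorner : ∀ (j : Fin k) (w : ℤ × ℤ), |w.1| ≤ 1 → |w.2| ≤ 1 →
      a (κ j + w) = τ j * psi M (n j) w := by
    intro j w hw1 hw2
    simp only [ha]
    rw [Finset.sum_eq_single j]
    · rw [add_sub_cancel_left]
    · intro i _ hij
      have : psi M (n i) (κ j + w - κ i) = 0 := by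
        rcases Nat.eq_zero_or_pos (n i) with h0 | h0
        · rw [h0]; exact psi_zero_all hM _
        · apply H177.psi_far hM
          have q1 := hn2 i h0
          have g1 := hκd i j hij
          simp only [Prod.fst_sub, Prod.snd_sub, Prod.fst_add, Prod.snd_add] at g1 ⊢
          have g2 : |(κ i).1 - (κ j).1| ≤ |(κ j).1 + w.1 - (κ i).1| + 1 := by
            have := abs_sub_abs_le_abs_sub ((κ i).1 - (κ j).1) w.1
            rw [abs_sub_comm ((κ i).1 - (κ j).1) w.1] at this
            have e : w.1 - ((κ i).1 - (κ j).1) = (κ j).1 + w.1 - (κ i).1 := by ring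
            rw [e] at this
            omega
          have g3 : |(κ i).2 - (κ j).2| ≤ |(κ j).2 + w.2 - (κ i).2| + 1 := by
            have := abs_sub_abs_le_abs_sub ((κ i).2 - (κ j).2) w.2
            rw [abs_sub_comm ((κ i).2 - (κ j).2) w.2] at this
            have e : w.2 - ((κ i).2 - (κ j).2) = (κ j).2 + w.2 - (κ i).2 := by ring
            rw [e] at this
            omega
          omega
      rw [this, mul_zero]
    · intro h; exact absurd (Finset.mem_univ j) h
  have hval : ∀ (j : Fin k) (w : ℤ × ℤ), |w.1| ≤ 1 → |w.2| ≤ 1 →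
      (w.1 : ℝ) ^ 2 + (w.2 : ℝ) ^ 2 ≤ 2 →
      2 * e j * (Real.log (n j) - m0) ≤ m j * a (κ j + w) := by
    intro j w hw1 hw2 hw
    rw [hcorner j w hw1 hw2]
    have h1 := psi_near2 hM (n := n j) hw
    have h2 := mul_le_mul_of_nonneg_left h1 (mul_nonneg zero_le_two (he0 j))
    have h3 : (m j : ℝ) * (τ j * psi M (n j) w) = 2 * e j * psi M (n j) w := by
      rw [← mul_assoc, e1]
    rw [h3]
    exact h2
  have hint : ∀ j, 2 * e j * (Real.log (n j) - m0) ≤ m j * interp l a (x j) := by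
    intro j
    have s0 := Int.emod_nonneg (x j).1 hlz.ne'
    have s1 := Int.emod_lt_of_pos (x j).1 hlz
    have t0 := Int.emod_nonneg (x j).2 hlz.ne'
    have t1 := Int.emod_lt_of_pos (x j).2 hlz
    have s0' : 0 ≤ (((x j).1 % l : ℤ) : ℝ) / l := div_nonneg (by exact_mod_cast s0) hl0.le
    have s1' : (((x j).1 % l : ℤ) : ℝ) / l ≤ 1 := by
      rw [div_le_one hl0]; exact_mod_cast s1.le
    have t0' : 0 ≤ (((x j).2 % l : ℤ) : ℝ) / l := div_nonneg (by exact_mod_cast t0) hl0.le
    have t1' : (((x j).2 % l : ℤ) : ℝ) / l ≤ 1 := by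
      rw [div_le_one hl0]; exact_mod_cast t1.le
    have hk : ((x j).1 / l, (x j).2 / l) = κ j := rfl
    unfold interp
    rw [hk]
    unfold bil
    have w1 := hval j 0 (by simp) (by simp) (by simp)
    have w2 := hval j (1, 0) (by simp) (by simp) (by norm_num)
    have w3 := hval j (0, 1) (by simp) (by simp) (by norm_num)
    have w4 := hval j (1, 1) (by simp) (by simp) (by norm_num)
    rw [add_zero] at w1
    have e4 : κ j + (1, 0) + (0, 1) = κ j + (1, 1) := by
      rw [add_assoc]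
      rfl
    rw [e4]
    refine (bil_ge s0' s1' t0' t1' w1 w2 w3 w4).trans (le_of_eq ?_)
    ring
  -- exceptional blocks
  set E : Finset (ℤ × ℤ) := Finset.univ.image κ with hE
  have hEc : E.card ≤ k := by
    refine Finset.card_image_le.trans ?_
    simp
  have hEm : ∀ κ', κ' ∉ E → ∀ j, x j ∉ innerAt l κ' := by
    intro κ' h j
    apply notMem_of_ne hl
    intro h'
    exact h (Finset.mem_image.2 ⟨j, Finset.mem_univ j, h'.symm⟩)
  set F : ℤ × ℤ → ℝ := fun z => Real.exp (U / 2 * (cp a z ^ 2 + cq a z ^ 2) +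
    C * (|ck a z| * cY a z + cY a z ^ 4) + if z ∈ E then C2 else 0) with hF
  have hnn : ∀ z, 0 ≤ U / 2 * (cp a z ^ 2 + cq a z ^ 2) +
      C * (|ck a z| * cY a z + cY a z ^ 4) := by
    intro z
    have := cY_nn a z
    positivity
  have hbound := gridM_bound hl (R + 1) hb a m x E hEm F
    (by
      intro z hz
      simp only [hF, hz, if_true]
      apply Real.exp_le_exp.2
      refine le_trans ?_ (le_add_of_nonneg_left (hnn z))
      refine Finset.sum_le_sum fun e' _ => ?_
      refine mul_le_mul_of_nonneg_left (sub_le_sub_right ?_ _) (by positivity)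
      rw [Real.cosh_le_cosh, abs_of_pos hδ]
      refine le_trans ?_ (hmc z).2.1
      have g : ∀ u v : ℝ, |v| ≤ 1 → |(-(u / l)) * v| ≤ |u| := by
        intro u v hv
        rw [abs_mul, abs_neg, abs_div, abs_of_pos hl0]
        have g1 : |u| / l ≤ |u| := div_le_self (abs_nonneg _) (by exact_mod_cast hl)
        calc |u| / l * |v| ≤ |u| / l * 1 :=
              mul_le_mul_of_nonneg_left hv (div_nonneg (abs_nonneg _) hl0.le)
          _ ≤ |u| := by rw [mul_one]; exact g1
      unfold cY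
      refine (abs_add_le _ _).trans (add_le_add ((abs_add_le _ _).trans (add_le_add ?_ ?_)) ?_)
      · exact g _ _ (hh_abs e')
      · exact g _ _ (vv_abs e')
      · exact g _ _ (ww_abs hl e'))
    (by
      intro z hz
      simp only [hF, hz, if_false, add_zero]
      exact hrho a z (hmc z).2.1)
  refine (chargeCorr_le_grid hl le_rfl hb m hxR hbound).trans ?_
  set S := ivl (R + 1) ×ˢ ivl (R + 1) with hS
  have hsumE : ∑ z ∈ S, (if z ∈ E then C2 else 0) ≤ k * C2 := by
    rw [← Finset.sum_filter, Finset.sum_const, nsmul_eq_mul]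
    refine mul_le_mul_of_nonneg_right ?_ hC20
    have h1 : (S.filter (· ∈ E)).card ≤ E.card :=
      Finset.card_le_card fun z hz => (Finset.mem_filter.1 hz).2
    exact_mod_cast h1.trans hEc
  have hsum : ∑ z ∈ S, (U / 2 * (cp a z ^ 2 + cq a z ^ 2) +
      C * (|ck a z| * cY a z + cY a z ^ 4)) ≤
      ∑ j, (U / 2 * τ j ^ 2 * (2 * Real.pi * Real.log (n j) + 4600) +
        C * (τ j ^ 2 + τ j ^ 4) * 210000) := by
    have h1 : ∀ z ∈ S, U / 2 * (cp a z ^ 2 + cq a z ^ 2) +
        C * (|ck a z| * cY a z + cY a z ^ 4) ≤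
        ∑ j, (U / 2 * τ j ^ 2 * (cp (psi M (n j)) (z - κ j) ^ 2 +
          cq (psi M (n j)) (z - κ j) ^ 2) + C * (τ j ^ 2 + τ j ^ 4) *
          (|ck (psi M (n j)) (z - κ j)| * cY (psi M (n j)) (z - κ j) +
            cY (psi M (n j)) (z - κ j) ^ 4)) := by
      intro z _
      obtain ⟨g1, _, g3⟩ := hmc z
      have g4 := mul_le_mul_of_nonneg_left g1 (show 0 ≤ U / 2 by positivity)
      have g5 := mul_le_mul_of_nonneg_left g3 hC.le
      rw [Finset.mul_sum] at g4 g5
      rw [Finset.sum_add_distrib]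
      refine (add_le_add g4 g5).trans (le_of_eq ?_)
      congr 1
      · exact Finset.sum_congr rfl fun j _ => by ring
      · exact Finset.sum_congr rfl fun j _ => by ring
    refine (Finset.sum_le_sum h1).trans ?_
    rw [Finset.sum_comm]
    refine Finset.sum_le_sum fun j _ => ?_
    rw [Finset.sum_add_distrib, ← Finset.mul_sum, ← Finset.mul_sum]
    refine add_le_add ?_ ?_
    · exact mul_le_mul_of_nonneg_left (sumP hM (n j) S (κ j)) (by positivity)
    · exact mul_le_mul_of_nonneg_left (sumE hM (n j) S (κ j)) (by positivity)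
  have htot : Real.exp (-(∑ j, m j * interp l a (x j))) * ∏ z ∈ S, F z ≤
      Real.exp c0 * ∏ j, Real.exp (-(e j * Real.log (n j))) := by
    simp only [hF]
    rw [← Real.exp_sum, ← Real.exp_add, ← Real.exp_sum, ← Real.exp_add]
    apply Real.exp_le_exp.2
    rw [Finset.sum_add_distrib (s := S)]
    have g1 : ∑ j, 2 * e j * (Real.log (n j) - m0) ≤ ∑ j, m j * interp l a (x j) :=
      Finset.sum_le_sum fun j _ => hint j
    have g2 : ∑ j, (U / 2 * τ j ^ 2 * (2 * Real.pi * Real.log (n j) + 4600) +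
        C * (τ j ^ 2 + τ j ^ 4) * 210000) + k * C2 =
        c0 + ∑ j, -(e j * Real.log (n j)) + ∑ j, 2 * e j * (Real.log (n j) - m0) := by
      rw [hc0]
      have g3 : ∑ j, (U / 2 * τ j ^ 2 * (2 * Real.pi * Real.log (n j) + 4600) +
        C * (τ j ^ 2 + τ j ^ 4) * 210000) =
        ∑ j, (2 * e j * m0 + U / 2 * τ j ^ 2 * 4600 + C * (τ j ^ 2 + τ j ^ 4) * 210000) +
        ∑ j, -(e j * Real.log (n j)) + ∑ j, 2 * e j * (Real.log (n j) - m0) := by
        rw [← Finset.sum_add_distrib, ← Finset.sum_add_distrib]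
        refine Finset.sum_congr rfl fun j _ => ?_
        linear_combination Real.log (n j) * e2 j
      rw [g3]
      ring
    linarith only [g1, g2, hsum, hsumE]
  refine htot.trans ?_
  rw [mul_assoc, ← Finset.prod_mul_distrib]
  refine mul_le_mul_of_nonneg_left ?_ (Real.exp_pos _).le
  refine Finset.prod_le_prod (fun j _ => (Real.exp_pos _).le) fun j _ => ?_
  exact one_charge (he0 j) (by positivity) (hd1 j) (hdn j)

/-- the infinite volume limit of the correlations of charges -/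
theorem chargeCorr_tendsto {b : ℝ} (hb : 0 ≤ b) {k : ℕ} (m : Fin k → ℤ) (x : Fin k → ℤ × ℤ) :
    ∃ c : ℝ, Tendsto (fun R : ℕ => chargeCorr R b m x) atTop (𝓝 c) ∧ 0 ≤ c ∧
      ∀ B : ℝ, (∀ R, (∀ j, x j ∈ box R) → chargeCorr R b m x ≤ B) → c ≤ B := by
  obtain ⟨R0, hR0⟩ : ∃ R0 : ℕ, ∀ j, x j ∈ box R0 := by
    refine ⟨∑ j, ((x j).1.natAbs + (x j).2.natAbs), fun j => ?_⟩
    have h := Finset.single_le_sum (f := fun j => (x j).1.natAbs + (x j).2.natAbs)
      (fun i _ => Nat.zero_le _) (Finset.mem_univ j)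
    rw [mem_box, Int.abs_eq_natAbs, Int.abs_eq_natAbs]
    constructor <;> omega
  have hmem : ∀ (n : ℕ) (j : Fin k), x j ∈ box (n + R0) := by
    intro n j
    have h1 := hR0 j
    rw [mem_box] at h1 ⊢
    push_cast
    constructor <;> omega
  have hmono : Monotone fun n : ℕ => chargeCorr (n + R0) b m x := fun p q h =>
    chargeCorr_mono (Nat.add_le_add_right h R0) hb m (hmem p)
  have hbdd : BddAbove (Set.range fun n : ℕ => chargeCorr (n + R0) b m x) :=
    ⟨1, by rintro _ ⟨n, rfl⟩; exact chargeCorr_le_one _ m (hmem n)⟩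
  have h1 := tendsto_atTop_ciSup hmono hbdd
  refine ⟨_, (tendsto_add_atTop_iff_nat R0).1 h1, ?_, fun B hB => ?_⟩
  · exact (chargeCorr_nonneg _ hb m (hmem 0)).trans (le_ciSup hbdd 0)
  · exact ciSup_le fun n => hB _ (hmem n)

theorem chargeBound : ChargeBound := by
  intro l hl b hb k m
  rcases (UJ.stiff_nonneg' hb hl).eq_or_lt with hS | hS
  · refine ⟨1, one_pos, fun x d hd hdist => ?_⟩
    have hp : ∏ j, (d j : ℝ) ^ (-((m j : ℝ) ^ 2 / (4 * Real.pi * stiff l b))) = 1 := by
      rw [← hS]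
      simp
    rw [hp, mul_one]
    refine ⟨fun R hR => ⟨chargeCorr_nonneg R hb m hR, chargeCorr_le_one R m hR⟩, ?_⟩
    obtain ⟨c, h1, h2, h3⟩ := chargeCorr_tendsto hb m x
    exact ⟨c, h1, h2, h3 1 fun R hR => chargeCorr_le_one R m hR⟩
  · obtain ⟨K, hK, h⟩ := chargeBound_aux hl hb hS le_rfl m
    refine ⟨K, hK, fun x d hd hdist => ⟨fun R hR =>
      ⟨chargeCorr_nonneg R hb m hR, h R x d hR hd hdist⟩, ?_⟩⟩
    obtain ⟨c, h1, h2, h3⟩ := chargeCorr_tendsto hb m x
    exact ⟨c, h1, h2, h3 _ fun R hR => h R x d hR hd hdist⟩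

end Vale.Agent.P159.H454
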