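import Vale.Agent.P159.H177.Charge
import Vale.Agent.P159.H454.Defs

/-!
Power law bounds for the correlations of integer charges at several sites.
-/

open MeasureTheory Filter Topology
open scoped BigOperators

namespace Vale.Agent.P159.H454

/-- the character with integer charges `m` at the sites `x` -/
noncomputable def mchr {k : ℕ} (m : Fin k → ℤ) (x : Fin k → ℤ × ℤ) : Chr Ginf where
  c θ := cosT (∑ j, m j • θ (x j))
  s θ := sinT (∑ j, m j • θ (x j))
  cont_c := cont_cos.comp (continuous_finsetSum _ fun j _ => (continuous_apply (x j)).zsmul (m j))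
  cont_s := cont_sin.comp (continuous_finsetSum _ fun j _ => (continuous_apply (x j)).zsmul (m j))
  c_add u v := by
    have : ∑ j, m j • (u + v) (x j) = ∑ j, m j • u (x j) + ∑ j, m j • v (x j) := by
      rw [← Finset.sum_add_distrib]
      refine Finset.sum_congr rfl fun j _ => ?_
      rw [Pi.add_apply, zsmul_add]
    rw [this]
    exact Real.Angle.cos_add _ _
  s_add u v := by
    have : ∑ j, m j • (u + v) (x j) = ∑ j, m j • u (x j) + ∑ j, m j • v (x j) := by
      rw [← Finset.sum_add_distrib]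
      refine Finset.sum_congr rfl fun j _ => ?_
      rw [Pi.add_apply, zsmul_add]
    rw [this]
    exact Real.Angle.sin_add _ _
  norm_sq x := Real.Angle.cos_sq_add_sin_sq _

/-- the finite volume correlation as an integral over all configurations -/
theorem chargeCorr_eq (R : ℕ) (b : ℝ) {k : ℕ} (m : Fin k → ℤ) {x : Fin k → ℤ × ℤ}
    (hx : ∀ j, x j ∈ box R) :
    chargeCorr R b m x = (∫ θ, (mchr m x).c θ * Real.exp (boxE R b θ) ∂muInf) /
      ∫ θ, Real.exp (boxE R b θ) ∂muInf := by
  unfold chargeCorr expect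
  have c1 : Continuous (fun θ : Ginf => (mchr m x).c θ * Real.exp (boxE R b θ)) :=
    (mchr m x).cont_c.mul (Real.continuous_exp.comp (boxE_cont R b))
  have c2 : Continuous (fun θ : Ginf => Real.exp (boxE R b θ)) :=
    Real.continuous_exp.comp (boxE_cont R b)
  have h1 := integral_ext (box R) c1
  have h2 := integral_ext (box R) c2
  simp only [boxE_proj] at h1 h2
  have h3 : ∀ θ : Ginf, (mchr m x).c (proj (box R : Set (ℤ × ℤ)) θ) = (mchr m x).c θ := by
    intro θ
    unfold mchr
    simp only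
    congr 1
    refine Finset.sum_congr rfl fun j _ => ?_
    rw [proj_of_mem (by simpa using hx j)]
  simp only [h3] at h1
  rw [← h1, ← h2]
  congr 1
  · congr 1
    ext θ
    rw [boxEnergy_eq]
    rfl
  · congr 1
    ext θ
    rw [boxEnergy_eq]

theorem exp_pos_int {H : Ginf → ℝ} (hH : Continuous H) : 0 < ∫ θ, Real.exp (H θ) ∂muInf :=
  integral_exp_pos (cint (Real.continuous_exp.comp hH))

theorem chargeCorr_le_one (R : ℕ) {b : ℝ} {k : ℕ} (m : Fin k → ℤ) {x : Fin k → ℤ × ℤ}
    (hx : ∀ j, x j ∈ box R) : chargeCorr R b m x ≤ 1 := by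
  rw [chargeCorr_eq R b m hx, div_le_one (exp_pos_int (boxE_cont R b))]
  refine integral_mono (cint ((mchr m x).cont_c.mul (Real.continuous_exp.comp (boxE_cont R b))))
    (cint (Real.continuous_exp.comp (boxE_cont R b))) fun θ => ?_
  exact mul_le_of_le_one_left (Real.exp_pos _).le ((le_abs_self _).trans ((mchr m x).abs_c_le θ))

theorem chargeCorr_nonneg (R : ℕ) {b : ℝ} (hb : 0 ≤ b) {k : ℕ} (m : Fin k → ℤ)
    {x : Fin k → ℤ × ℤ} (hx : ∀ j, x j ∈ box R) : 0 ≤ chargeCorr R b m x := by
  rw [chargeCorr_eq R b m hx]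
  refine div_nonneg ?_ (integral_nonneg fun θ => (Real.exp_pos _).le)
  have h := ginibre_mono muInf pi_div2 InCone.zero (boxE_cone R hb) (mchr m x)
  simp only [zero_add, Real.exp_zero, mul_one, integral_const, probReal_univ, smul_eq_mul] at h
  refine le_trans (mul_nonneg (H177.chr_int_nonneg _) ?_) h
  exact integral_nonneg fun θ => (Real.exp_pos _).le

/-- the finite volume correlations are monotone in the box -/
theorem chargeCorr_mono {R R' : ℕ} (h : R ≤ R') {b : ℝ} (hb : 0 ≤ b) {k : ℕ} (m : Fin k → ℤ)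
    {x : Fin k → ℤ × ℤ} (hx : ∀ j, x j ∈ box R) : chargeCorr R b m x ≤ chargeCorr R' b m x := by
  have hx' : ∀ j, x j ∈ box R' := by
    intro j
    have h1 := hx j
    rw [mem_box] at h1 ⊢
    have : (R : ℤ) ≤ R' := by exact_mod_cast h
    constructor <;> omega
  obtain ⟨D, hD, hE⟩ := H177.box_sub (s := 0) (R := R) (R' := R') (by simpa using h)
    (by simpa using h) hb
  have e0 : ∀ θ, H177.tE 0 R b θ = boxE R b θ := by
    intro θ
    unfold H177.tE
    congr 1
    funext v
    show θ (v - 0) = θ v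
    rw [sub_zero]
  simp only [e0] at hE
  rw [chargeCorr_eq R b m hx, chargeCorr_eq R' b m hx',
    div_le_div_iff₀ (exp_pos_int (boxE_cont R b)) (exp_pos_int (boxE_cont R' b))]
  have h := ginibre_mono muInf pi_div2 (boxE_cone R hb) hD (mchr m x)
  simp_rw [← hE] at h
  exact h

/-- the correlation in the box is at most the correlation in the grid of blocks -/
theorem chargeCorr_le_grid {l : ℕ} (hl : 1 ≤ l) {N R : ℕ} (hN : R + 1 ≤ N) {b : ℝ} (hb : 0 ≤ b)
    {k : ℕ} (m : Fin k → ℤ) {x : Fin k → ℤ × ℤ} (hx : ∀ j, x j ∈ box R) {B : ℝ}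
    (hB : |∫ θ, (mchr m x).c θ * Real.exp (gridE l N b θ) ∂muInf| ≤
      B * ∫ θ, Real.exp (gridE l N b θ) ∂muInf) : chargeCorr R b m x ≤ B := by
  obtain ⟨D, hD, hE⟩ := grid_sub_box hl hN hb
  have h := ginibre_mono muInf pi_div2 (boxE_cone R hb) hD (mchr m x)
  simp_rw [← hE] at h
  have p1 := exp_pos_int (boxE_cont R b)
  have p2 := exp_pos_int (gridE_cont l N b)
  rw [chargeCorr_eq R b m hx, div_le_iff₀ p1]
  have h1 := (le_abs_self _).trans hB
  have h2 : (∫ θ, (mchr m x).c θ * Real.exp (boxE R b θ) ∂muInf) *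
      (∫ θ, Real.exp (gridE l N b θ) ∂muInf) ≤
      (B * ∫ θ, Real.exp (boxE R b θ) ∂muInf) * (∫ θ, Real.exp (gridE l N b θ) ∂muInf) := by
    refine h.trans ?_
    calc (∫ θ, (mchr m x).c θ * Real.exp (gridE l N b θ) ∂muInf) *
        (∫ θ, Real.exp (boxE R b θ) ∂muInf)
        ≤ (B * ∫ θ, Real.exp (gridE l N b θ) ∂muInf) * (∫ θ, Real.exp (boxE R b θ) ∂muInf) :=
          mul_le_mul_of_nonneg_right h1 p1.le
      _ = _ := by ring
  exact le_of_mul_le_mul_right h2 p2

/-- the factor of a block in which nothing is averaged -/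
theorem rho_trivial {κ : Type*} [Fintype κ] (J : κ → ℝ) (χ : κ → Chr Ginf) (y : κ → ℝ)
    (P : Ginf →+ Ginf) (hP : Continuous P) (h0 : ∀ x, P x = 0) :
    rho muInf J (fun e => (χ e).comp P hP) y =
      Real.exp (∑ e, J e * (Real.cosh (y e) - 1)) := by
  have h1 : ∀ z : κ → ℂ, ZZ muInf J (fun e => (χ e).comp P hP) z =
      Complex.exp (∑ e, J e * Complex.cos (z e)) := by
    intro z
    unfold ZZ
    have h2 : ∀ x : Ginf, Complex.exp (∑ e, J e * ((χ e).comp P hP).C (z e) x) =
        Complex.exp (∑ e, J e * Complex.cos (z e)) := by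
      intro x
      congr 1
      refine Finset.sum_congr rfl fun e _ => ?_
      unfold Chr.C Chr.comp
      simp only
      rw [h0, (χ e).zero_vals.1, (χ e).zero_vals.2]
      push_cast
      ring
    simp_rw [h2]
    simp
  unfold rho
  rw [h1, h1, Complex.norm_exp, Complex.norm_exp, ← Real.exp_sub, Complex.re_sum, Complex.re_sum,
    ← Finset.sum_sub_distrib]
  congr 1
  refine Finset.sum_congr rfl fun e _ => ?_
  rw [Complex.re_ofReal_mul, Complex.re_ofReal_mul, Complex.cos_mul_I, ← Complex.ofReal_cosh,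
    Complex.ofReal_re]
  simp only [Pi.zero_apply, Complex.cos_zero, Complex.one_re]
  ring

/-- block bound for a coarse profile and charges at arbitrary sites; in the blocks of `E` nothing
is averaged -/
theorem gridM_bound {l : ℕ} (hl : 1 ≤ l) (N : ℕ) {b : ℝ} (hb : 0 ≤ b) (a : ℤ × ℤ → ℝ)
    {k : ℕ} (m : Fin k → ℤ) (x : Fin k → ℤ × ℤ) (E : Finset (ℤ × ℤ))
    (hE : ∀ κ, κ ∉ E → ∀ j, x j ∉ innerAt l κ) (F : ℤ × ℤ → ℝ)
    (hF1 : ∀ κ ∈ E, Real.exp (∑ e : BI l, b / 2 * (Real.cosh
      ((-(cp a κ / l)) * hh e + (-(cq a κ / l)) * vv e + (-(ck a κ / l)) * ww e) - 1)) ≤ F κ)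
    (hF2 : ∀ κ, κ ∉ E → rho muInf (fun _ : BI l => b / 2) (chi0 l)
        (fun e => (-(cp a κ / l)) * hh e + (-(cq a κ / l)) * vv e + (-(ck a κ / l)) * ww e) ≤ F κ) :
    |∫ θ, (mchr m x).c θ * Real.exp (gridE l N b θ) ∂muInf| ≤
      (Real.exp (-(∑ j, m j * interp l a (x j))) * ∏ κ ∈ ivl N ×ˢ ivl N, F κ) *
      ∫ θ, Real.exp (gridE l N b θ) ∂muInf := by
  classical
  have hg : ∀ (u v : ℤ × ℤ) (s : ℝ), (grad u v).c (fun w => ((s * interp l a w : ℝ) : T)) =
      Real.cos (s * (interp l a u - interp l a v)) ∧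
      (grad u v).s (fun w => ((s * interp l a w : ℝ) : T)) =
      Real.sin (s * (interp l a u - interp l a v)) := by
    intro u v s
    unfold grad
    simp only
    rw [← AddCircle.coe_sub, cosT_coe, sinT_coe, mul_sub]
    exact ⟨rfl, rfl⟩
  have hgm : ∀ s : ℝ, (mchr m x).c (fun w => ((s * interp l a w : ℝ) : T)) =
      Real.cos (s * ∑ j, m j * interp l a (x j)) ∧
      (mchr m x).s (fun w => ((s * interp l a w : ℝ) : T)) =
      Real.sin (s * ∑ j, m j * interp l a (x j)) := by
    intro s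
    have e : ∑ j, m j • (((s * interp l a (x j) : ℝ)) : T) =
        ((s * ∑ j, m j * interp l a (x j) : ℝ) : T) := by
      rw [Finset.mul_sum]
      have h1 : ∀ j ∈ Finset.univ, m j • (((s * interp l a (x j) : ℝ)) : T) =
          ((s * (m j * interp l a (x j)) : ℝ) : T) := by
        intro j _
        rw [← AddCircle.coe_zsmul, zsmul_eq_mul]
        congr 1
        ring
      rw [Finset.sum_congr rfl h1]
      exact (map_sum (QuotientAddGroup.mk' (AddSubgroup.zmultiples (2 * Real.pi)))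
        (fun j => s * (m j * interp l a (x j))) Finset.univ).symm
    unfold mchr
    simp only
    rw [e, cosT_coe, sinT_coe]
    exact ⟨rfl, rfl⟩
  set P : ℤ × ℤ → (Ginf →+ Ginf) := fun κ => if κ ∈ E then 0 else proj (innerAt l κ) with hP
  have hPE : ∀ κ, κ ∈ E → P κ = 0 := fun κ hκ => by simp [hP, hκ]
  have hPn : ∀ κ, κ ∉ E → P κ = proj (innerAt l κ) := fun κ hκ => by simp [hP, hκ]
  have hPc : ∀ κ, Continuous (P κ) := by
    intro κ
    by_cases h : κ ∈ E
    · rw [hPE κ h]; exact continuous_const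
    · rw [hPn κ h]; exact proj_cont _
  have h := block_bound muInf (K := ↥(ivl N ×ˢ ivl N)) (κ := BI l) pi_div2 (fun _ => b / 2)
    (fun _ => by positivity) (fun k e => chiAt l k e) (mchr m x)
    (fun k => P k) (fun k => hPc k)
    (by
      intro j k hjk e θ
      have hne : (j : ℤ × ℤ) ≠ (k : ℤ × ℤ) := fun h => hjk (Subtype.ext h)
      by_cases hj : (j : ℤ × ℤ) ∈ E
      · rw [hPE _ hj]
        exact (chiAt l k e).zero_vals
      · rw [hPn _ hj]
        obtain ⟨a1, a2, a3, a4⟩ := bu_range e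
        obtain ⟨b1, b2, b3, b4⟩ := bv_range e
        unfold chiAt grad
        simp only
        rw [proj_of_notMem (notMem_innerAt hne a1 a2 a3 a4),
          proj_of_notMem (notMem_innerAt hne b1 b2 b3 b4), sub_zero, cosT_zero, sinT_zero]
        exact ⟨rfl, rfl⟩)
    (by
      intro k θ
      by_cases hk : (k : ℤ × ℤ) ∈ E
      · rw [hPE _ hk]
        exact (mchr m x).zero_vals
      · rw [hPn _ hk]
        unfold mchr
        simp only
        have h1 : ∑ j, m j • proj (innerAt l k) θ (x j) = 0 :=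
          Finset.sum_eq_zero fun j _ => by rw [proj_of_notMem (hE _ hk j), zsmul_zero]
        rw [h1, cosT_zero, sinT_zero]
        exact ⟨rfl, rfl⟩)
    (fun k e => interp l a (cor l k + bu e) - interp l a (cor l k + bv e))
    (∑ j, m j * interp l a (x j))
    (fun s => fun w => ((s * interp l a w : ℝ) : T))
    (fun k e s => hg _ _ s)
    (fun s => hgm s)
  have e1 : ∀ θ : Ginf, ∑ k : ↥(ivl N ×ˢ ivl N), ∑ e : BI l, b / 2 * (chiAt l k e).c θ =
      gridE l N b θ := by
    intro θ
    unfold gridE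
    exact Finset.sum_coe_sort (ivl N ×ˢ ivl N) (fun k => ∑ e : BI l, b / 2 * (chiAt l k e).c θ)
  simp_rw [e1] at h
  refine h.trans ?_
  refine mul_le_mul_of_nonneg_right ?_ (integral_nonneg fun θ => (Real.exp_pos _).le)
  refine mul_le_mul_of_nonneg_left ?_ (Real.exp_pos _).le
  rw [← Finset.prod_coe_sort (ivl N ×ˢ ivl N) F]
  refine Finset.prod_le_prod (fun k _ => div_nonneg (norm_nonneg _) (norm_nonneg _)) fun k _ => ?_
  by_cases hk : (k : ℤ × ℤ) ∈ E
  · rw [rho_trivial _ _ _ _ _ (fun x => by rw [hPE _ hk]; rfl)]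
    simp_rw [interp_bond hl]
    exact hF1 _ hk
  · have h1 : (fun e => (chiAt l k e).comp (P k) (hPc k)) =
        fun e => (chiAt l k e).comp (proj (innerAt l k)) (proj_cont _) := by
      funext e
      unfold Chr.comp
      simp only [hPn _ hk]
    rw [h1, rho_translate]
    simp_rw [interp_bond hl]
    exact hF2 _ hk

end Vale.Agent.P159.H454
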