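import Vale.Agent.P159.H454.Main

/-!
Profiles with several centres of different sizes.
-/

open MeasureTheory Filter Topology
open scoped BigOperators

namespace Vale.Agent.P159.H454

theorem sum_lin {k : ℕ} (τ : Fin k → ℝ) (f : Fin k → ℤ × ℤ → ℝ) (c : Fin k → ℤ × ℤ)
    (z : ℤ × ℤ) :
    cp (fun z => ∑ j, τ j * f j (z - c j)) z = ∑ j, τ j * cp (f j) (z - c j) ∧
    cq (fun z => ∑ j, τ j * f j (z - c j)) z = ∑ j, τ j * cq (f j) (z - c j) ∧
    ck (fun z => ∑ j, τ j * f j (z - c j)) z = ∑ j, τ j * ck (f j) (z - c j) := by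
  have h : ∀ w x : ℤ × ℤ, z + w - x = z - x + w := fun w x => by abel
  have h' : ∀ w w' x : ℤ × ℤ, z + w + w' - x = z - x + w + w' := fun w w' x => by abel
  refine ⟨?_, ?_, ?_⟩
  · unfold cp
    simp only [h, h']
    rw [← Finset.sum_sub_distrib, ← Finset.sum_sub_distrib, ← Finset.sum_add_distrib,
      Finset.sum_div]
    exact Finset.sum_congr rfl fun j _ => by ring
  · unfold cq
    simp only [h, h']
    rw [← Finset.sum_sub_distrib, ← Finset.sum_sub_distrib, ← Finset.sum_add_distrib,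
      Finset.sum_div]
    exact Finset.sum_congr rfl fun j _ => by ring
  · unfold ck
    simp only [h, h']
    rw [← Finset.sum_sub_distrib, ← Finset.sum_sub_distrib, ← Finset.sum_add_distrib]
    exact Finset.sum_congr rfl fun j _ => by ring

theorem psi_zero_all {M : ℝ} (hM : 9 ≤ M) (w : ℤ × ℤ) : psi M 0 w = 0 :=
  psi_zero_of hM (by
    have h1 := sq_nonneg (w.1 : ℝ)
    have h2 := sq_nonneg (w.2 : ℝ)
    have h3 : ((0 : ℕ) : ℝ) ^ 2 = 0 := by norm_num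
    rw [h3]
    linarith only [h1, h2])

theorem inactive {M : ℝ} (hM : 9 ≤ M) {n : ℕ} {w : ℤ × ℤ} (h : ¬ (1 ≤ n ∧ w ∈ sq n)) :
    cp (psi M n) w = 0 ∧ cq (psi M n) w = 0 ∧ ck (psi M n) w = 0 := by
  rcases Nat.eq_zero_or_pos n with hn | hn
  · subst hn
    unfold cp cq ck
    simp only [psi_zero_all hM]
    norm_num
  · exact psi_inactive hM fun hw => h ⟨hn, hw⟩

theorem psi_nn (M : ℝ) (n : ℕ) (w : ℤ × ℤ) : 0 ≤ psi M n w := le_max_left _ _

theorem cY_nn (f : ℤ × ℤ → ℝ) (z : ℤ × ℤ) : 0 ≤ cY f z := by unfold cY; positivity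

/-- the values of the profile near its centre -/
theorem psi_near2 {M : ℝ} (hM : 9 ≤ M) {n : ℕ} {w : ℤ × ℤ}
    (hw : (w.1 : ℝ) ^ 2 + (w.2 : ℝ) ^ 2 ≤ 2) :
    Real.log n - Real.log (M ^ 2 + 2) / 2 ≤ psi M n w := by
  have hM0 : 0 < M := by linarith only [hM]
  rcases Nat.eq_zero_or_pos n with hn | hn
  · subst hn
    have h0 := psi_nn M 0 w
    have h1 : 0 ≤ Real.log (M ^ 2 + 2) := Real.log_nonneg (by nlinarith only [hM])
    simp only [Nat.cast_zero, Real.log_zero]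
    linarith only [h0, h1]
  · unfold psi phi qq
    refine le_trans ?_ (le_max_right _ _)
    have hn0 : (0 : ℝ) < n := by exact_mod_cast hn
    have h1 : Real.log ((n : ℝ) ^ 2) ≤ Real.log (M ^ 2 + (n : ℝ) ^ 2) := by
      apply Real.log_le_log (by positivity)
      nlinarith only []
    rw [Real.log_pow] at h1
    have h2 : Real.log (M ^ 2 + (w.1 : ℝ) ^ 2 + (w.2 : ℝ) ^ 2) ≤ Real.log (M ^ 2 + 2) := by
      apply Real.log_le_log (by positivity)
      linarith only [hw]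
    push_cast at h1
    linarith only [h1, h2]

theorem sumP {M : ℝ} (hM : 9 ≤ M) (n : ℕ) (S : Finset (ℤ × ℤ)) (x : ℤ × ℤ) :
    ∑ z ∈ S, (cp (psi M n) (z - x) ^ 2 + cq (psi M n) (z - x) ^ 2) ≤
      2 * Real.pi * Real.log n + 4600 := by
  rcases Nat.eq_zero_or_pos n with hn | hn
  · subst hn
    have h0 : ∀ z ∈ S, cp (psi M 0) (z - x) ^ 2 + cq (psi M 0) (z - x) ^ 2 = 0 := by
      intro z _
      obtain ⟨h1, h2, _⟩ := inactive hM (n := 0) (w := z - x) (by omega)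
      rw [h1, h2]
      norm_num
    rw [Finset.sum_eq_zero h0]
    simp
  · exact sum_P_le hM hn S x

theorem sumE {M : ℝ} (hM : 9 ≤ M) (n : ℕ) (S : Finset (ℤ × ℤ)) (x : ℤ × ℤ) :
    ∑ z ∈ S, (|ck (psi M n) (z - x)| * cY (psi M n) (z - x) + cY (psi M n) (z - x) ^ 4) ≤
      210000 := by
  rcases Nat.eq_zero_or_pos n with hn | hn
  · subst hn
    have h0 : ∀ z ∈ S, |ck (psi M 0) (z - x)| * cY (psi M 0) (z - x) +
        cY (psi M 0) (z - x) ^ 4 = 0 := by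
      intro z _
      obtain ⟨h1, h2, h3⟩ := inactive hM (n := 0) (w := z - x) (by omega)
      unfold cY
      rw [h1, h2, h3]
      norm_num
    rw [Finset.sum_eq_zero h0]
    norm_num
  · exact sum_E_le hM hn S x

theorem single_ge {τ k Y : ℝ} (hk : 0 ≤ k) (hY : 0 ≤ Y) :
    (|τ| * k) * (|τ| * Y) + (|τ| * Y) ^ 4 ≤ (τ ^ 2 + τ ^ 4) * (k * Y + Y ^ 4) := by
  have e0 : |τ| ^ 2 = τ ^ 2 := sq_abs τ
  have e00 : |τ| ^ 4 = τ ^ 4 := by
    have : |τ| ^ 4 = (|τ| ^ 2) ^ 2 := by ring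
    rw [this, e0]; ring
  have e1 : (|τ| * k) * (|τ| * Y) + (|τ| * Y) ^ 4 = |τ| ^ 2 * (k * Y) + |τ| ^ 4 * Y ^ 4 := by ring
  rw [e1, e0, e00]
  have e2 : 0 ≤ τ ^ 2 * Y ^ 4 + τ ^ 4 * (k * Y) := by positivity
  linarith only [e2]

theorem multi_centre {M : ℝ} (hM : 9 ≤ M) {k : ℕ} (τ : Fin k → ℝ) (n : Fin k → ℕ)
    (c : Fin k → ℤ × ℤ)
    (hdis : ∀ (z : ℤ × ℤ) (i j : Fin k), i ≠ j → 1 ≤ n i → 1 ≤ n j → z - c i ∈ sq (n i) →
      z - c j ∉ sq (n j)) {Y0 : ℝ} (hY0 : 0 ≤ Y0) (hτ : ∀ j, |τ j| * (16 / M) ≤ Y0)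
    {a : ℤ × ℤ → ℝ} (ha : a = fun z => ∑ j, τ j * psi M (n j) (z - c j)) (z : ℤ × ℤ) :
    cp a z ^ 2 + cq a z ^ 2 ≤ ∑ j, τ j ^ 2 * (cp (psi M (n j)) (z - c j) ^ 2 +
      cq (psi M (n j)) (z - c j) ^ 2) ∧
    cY a z ≤ Y0 ∧
    |ck a z| * cY a z + cY a z ^ 4 ≤ ∑ j, (τ j ^ 2 + τ j ^ 4) *
      (|ck (psi M (n j)) (z - c j)| * cY (psi M (n j)) (z - c j) +
        cY (psi M (n j)) (z - c j) ^ 4) := by
  obtain ⟨h1, h2, h3⟩ := sum_lin τ (fun j => psi M (n j)) c z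
  rw [← ha] at h1 h2 h3
  have hn1 : ∀ j ∈ Finset.univ, 0 ≤ τ j ^ 2 * (cp (psi M (n j)) (z - c j) ^ 2 +
      cq (psi M (n j)) (z - c j) ^ 2) := fun j _ => by positivity
  have hn2 : ∀ j ∈ Finset.univ, 0 ≤ (τ j ^ 2 + τ j ^ 4) *
      (|ck (psi M (n j)) (z - c j)| * cY (psi M (n j)) (z - c j) +
        cY (psi M (n j)) (z - c j) ^ 4) := fun j _ => by
    have := cY_nn (psi M (n j)) (z - c j)
    positivity
  by_cases hact : ∃ j0, 1 ≤ n j0 ∧ z - c j0 ∈ sq (n j0)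
  · obtain ⟨j0, hj0, hz0⟩ := hact
    have hin : ∀ j, j ≠ j0 → cp (psi M (n j)) (z - c j) = 0 ∧ cq (psi M (n j)) (z - c j) = 0 ∧
        ck (psi M (n j)) (z - c j) = 0 := fun j hj =>
      inactive hM fun hh => hdis z j0 j (Ne.symm hj) hj0 hh.1 hz0 hh.2
    have e1 : cp a z = τ j0 * cp (psi M (n j0)) (z - c j0) := by
      rw [h1]
      exact Finset.sum_eq_single j0 (fun j _ hj => by rw [(hin j hj).1, mul_zero])
        (fun h => absurd (Finset.mem_univ _) h)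
    have e2 : cq a z = τ j0 * cq (psi M (n j0)) (z - c j0) := by
      rw [h2]
      exact Finset.sum_eq_single j0 (fun j _ hj => by rw [(hin j hj).2.1, mul_zero])
        (fun h => absurd (Finset.mem_univ _) h)
    have e3 : ck a z = τ j0 * ck (psi M (n j0)) (z - c j0) := by
      rw [h3]
      exact Finset.sum_eq_single j0 (fun j _ hj => by rw [(hin j hj).2.2, mul_zero])
        (fun h => absurd (Finset.mem_univ _) h)
    have e4 : cY a z = |τ j0| * cY (psi M (n j0)) (z - c j0) := by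
      unfold cY
      rw [e1, e2, e3, abs_mul, abs_mul, abs_mul]
      ring
    refine ⟨?_, ?_, ?_⟩
    · refine le_trans (le_of_eq ?_) (Finset.single_le_sum hn1 (Finset.mem_univ j0))
      rw [e1, e2]
      ring
    · rw [e4]
      refine le_trans (mul_le_mul_of_nonneg_left ?_ (abs_nonneg _)) (hτ j0)
      refine (cY_le hM (n j0) (z - c j0)).trans ?_
      have g2 : M ≤ Real.sqrt (qq M (z - c j0)) := by
        apply Real.le_sqrt_of_sq_le
        unfold qq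
        nlinarith only []
      have hM0 : 0 < M := by linarith only [hM]
      gcongr
    · refine le_trans ?_ (Finset.single_le_sum hn2 (Finset.mem_univ j0))
      rw [e3, e4, abs_mul]
      exact single_ge (abs_nonneg _) (cY_nn _ _)
  · have hin : ∀ j, cp (psi M (n j)) (z - c j) = 0 ∧ cq (psi M (n j)) (z - c j) = 0 ∧
        ck (psi M (n j)) (z - c j) = 0 := fun j => inactive hM fun hh => hact ⟨j, hh⟩
    have e1 : cp a z = 0 := by
      rw [h1]
      exact Finset.sum_eq_zero fun j _ => by rw [(hin j).1, mul_zero]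
    have e2 : cq a z = 0 := by
      rw [h2]
      exact Finset.sum_eq_zero fun j _ => by rw [(hin j).2.1, mul_zero]
    have e3 : ck a z = 0 := by
      rw [h3]
      exact Finset.sum_eq_zero fun j _ => by rw [(hin j).2.2, mul_zero]
    have e4 : cY a z = 0 := by
      unfold cY
      rw [e1, e2, e3]
      norm_num
    refine ⟨?_, ?_, ?_⟩
    · rw [e1, e2]
      refine le_trans (by norm_num) (Finset.sum_nonneg hn1)
    · rw [e4]; exact hY0
    · rw [e3, e4]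
      refine le_trans (by norm_num) (Finset.sum_nonneg hn2)

/-- integer parts of points at distance at least `d` -/
theorem floor_dist {l : ℕ} (hl : 1 ≤ l) {u v : ℤ} {d : ℕ} (h : (d : ℤ) ≤ |u - v|) :
    ((d / l : ℕ) : ℤ) ≤ |u / l - v / l| := by
  have hlz : (0 : ℤ) < l := by exact_mod_cast hl
  have key : ∀ u v : ℤ, (d : ℤ) ≤ u - v → ((d / l : ℕ) : ℤ) ≤ u / l - v / l := by
    intro u v h
    have h1 := Int.mul_ediv_add_emod u l
    have h2 := Int.mul_ediv_add_emod v l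
    have h3 := Int.emod_lt_of_pos u hlz
    have h4 := Int.emod_nonneg v hlz.ne'
    have h5 : l * (d / l) ≤ d := Nat.mul_div_le d l
    have h6 : (l : ℤ) * ((d / l : ℕ) : ℤ) ≤ d := by exact_mod_cast h5
    have h7 : (l : ℤ) * (((d / l : ℕ) : ℤ) - 1) < l * (u / l - v / l) := by
      rw [mul_sub, mul_sub]
      linarith only [h1, h2, h3, h4, h6, h]
    have h8 := lt_of_mul_lt_mul_left h7 hlz.le
    omega
  rcases le_abs.1 h with h | h
  · exact (key u v h).trans (le_abs_self _)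
  · refine (key v u (by linarith only [h])).trans ?_
    rw [abs_sub_comm]
    exact le_abs_self _

/-- convex combinations on a cell -/
theorem bil_ge {G σ ρ v1 v2 v3 v4 : ℝ} (h0 : 0 ≤ σ) (h1 : σ ≤ 1) (g0 : 0 ≤ ρ) (g1 : ρ ≤ 1)
    (w1 : G ≤ v1) (w2 : G ≤ v2) (w3 : G ≤ v3) (w4 : G ≤ v4) :
    G ≤ v1 * (1 - σ) * (1 - ρ) + v2 * σ * (1 - ρ) + v3 * (1 - σ) * ρ + v4 * σ * ρ := by
  have a1 : 0 ≤ (v1 - G) * ((1 - σ) * (1 - ρ)) :=
    mul_nonneg (sub_nonneg.2 w1) (mul_nonneg (sub_nonneg.2 h1) (sub_nonneg.2 g1))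
  have a2 : 0 ≤ (v2 - G) * (σ * (1 - ρ)) :=
    mul_nonneg (sub_nonneg.2 w2) (mul_nonneg h0 (sub_nonneg.2 g1))
  have a3 : 0 ≤ (v3 - G) * ((1 - σ) * ρ) :=
    mul_nonneg (sub_nonneg.2 w3) (mul_nonneg (sub_nonneg.2 h1) g0)
  have a4 : 0 ≤ (v4 - G) * (σ * ρ) := mul_nonneg (sub_nonneg.2 w4) (mul_nonneg h0 g0)
  linarith only [a1, a2, a3, a4]

end Vale.Agent.P159.H454
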